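import Mathlib

/-!
Finite Trotter circuits for the spin 1/2 Heisenberg ferromagnet (P361, note 9886).

A circuit is a finite list of slots: partial swaps `(1-p) + p P_xy` and node slots, each carrying a
label `z : ν`.  Configurations are `V → Bool` (`true` = up).

* spin picture: the node `z` at the site `x` is `1 + θ_z σ³_x` (diagonal);
* charge picture: the node `z` at `x` is `1 + θ_z (σ⁺_x + σ⁻_x)`, the charge `j_z = ω_z - 1`
  is the jump (`0` = down, `1` = none, `2` = up).
-/

namespace Vale.Agent.P361.LRO.CircForm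

open Matrix

noncomputable section

/-- Spin configurations, `true` = up. -/
abbrev Cfg (V : Type*) := V → Bool

/-- A slot of a circuit: a partial swap of the sites `x, y`, or the node `z` at the site `x`. -/
inductive Slot (V ν : Type*)
  | sw (x y : V) (p : ℝ)
  | nd (x : V) (z : ν)

/-- The labels of the nodes of a circuit, in order. -/
def labels {V ν : Type*} : List (Slot V ν) → List ν
  | [] => []
  | Slot.sw _ _ _ :: C => labels C
  | Slot.nd _ z :: C => z :: labels C

/-- The partial swaps are honest (`0 ≤ p ≤ 1`). -/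
def GoodP {V ν : Type*} (C : List (Slot V ν)) : Prop :=
  ∀ x y p, Slot.sw x y p ∈ C → 0 ≤ p ∧ p ≤ 1

/-- Every label occurs exactly once. -/
def GoodL {V ν : Type*} (C : List (Slot V ν)) : Prop :=
  (labels C).Nodup ∧ ∀ z : ν, z ∈ labels C

section Mats

variable {V : Type*} [Fintype V] [DecidableEq V] (R : Type*) [CommRing R]

/-- The swap of the sites `x, y`. -/
def swapM (x y : V) : Matrix (Cfg V) (Cfg V) R :=
  Matrix.of fun s t => if t = s ∘ Equiv.swap x y then 1 else 0

/-- `σ⁺_x`: from `s x = false` to `true`. -/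
def upM (x : V) : Matrix (Cfg V) (Cfg V) R :=
  Matrix.of fun s t => if s x = false ∧ t = Function.update s x true then 1 else 0

/-- `σ⁻_x`: from `s x = true` to `false`. -/
def dnM (x : V) : Matrix (Cfg V) (Cfg V) R :=
  Matrix.of fun s t => if s x = true ∧ t = Function.update s x false then 1 else 0

/-- `σ¹_x`: the flip at `x`. -/
def sxM (x : V) : Matrix (Cfg V) (Cfg V) R :=
  Matrix.of fun s t => if t = Function.update s x (!(s x)) then 1 else 0

/-- `σ³_x`. -/
def szM (x : V) : Matrix (Cfg V) (Cfg V) R :=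
  Matrix.of fun s t => if t = s then (if s x = true then 1 else -1) else 0

end Mats

section Circuits

variable {V ν : Type*} [Fintype V] [DecidableEq V]

/-- The matrix of a slot, the node matrices being given by `f`. -/
def Slot.mat {R : Type*} [CommRing R] [Algebra ℝ R] (f : V → ν → Matrix (Cfg V) (Cfg V) R) :
    Slot V ν → Matrix (Cfg V) (Cfg V) R
  | Slot.sw x y p => (1 - p) • (1 : Matrix (Cfg V) (Cfg V) R) + p • swapM R x y
  | Slot.nd x z => f x z

/-- The matrix of a circuit (first slot leftmost). -/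
def wordM {R : Type*} [CommRing R] [Algebra ℝ R] (f : V → ν → Matrix (Cfg V) (Cfg V) R)
    (C : List (Slot V ν)) : Matrix (Cfg V) (Cfg V) R :=
  (C.map (Slot.mat f)).prod

/-- Node components in the charge picture: `0 ↦ σ⁻`, `1 ↦ 1`, `2 ↦ σ⁺`. -/
def compM (R : Type*) [CommRing R] (n : Fin 3) (x : V) : Matrix (Cfg V) (Cfg V) R :=
  if n = 0 then dnM R x else if n = 1 then 1 else upM R x

/-- The weight at `θ = 1` of the charge configuration `ω` (`j_z = ω_z - 1`). -/
def chW (C : List (Slot V ν)) (ω : ν → Fin 3) : ℝ :=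
  Matrix.trace (wordM (fun x z => compM ℝ (ω z) x) C)

/-- The weight of the charge configuration `ω` at node weights `θ`. -/
def chWt [Fintype ν] (C : List (Slot V ν)) (θ : ν → ℝ) (ω : ν → Fin 3) : ℝ :=
  (∏ z, if ω z = 1 then 1 else θ z) * chW C ω

/-- The charge. -/
def chg (ω : ν → Fin 3) (z : ν) : ℝ := ((ω z : ℕ) : ℝ) - 1

/-- Partition function, charge picture. -/
def chZ [Fintype ν] [DecidableEq ν] (C : List (Slot V ν)) (θ : ν → ℝ) : ℝ := ∑ ω, chWt C θ ω

/-- Expectation of the charge law. -/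
def chE [Fintype ν] [DecidableEq ν] (C : List (Slot V ν)) (θ : ν → ℝ)
    (F : (ν → Fin 3) → ℝ) : ℝ :=
  (∑ ω, chWt C θ ω * F ω) / chZ C θ

/-- Conductance `c_uv = - E j_u j_v`. -/
def cnd [Fintype ν] [DecidableEq ν] (C : List (Slot V ν)) (θ : ν → ℝ) (u v : ν) : ℝ :=
  -chE C θ fun ω => chg ω u * chg ω v

/-- `K(a) = E (∑ a j)²` (the mean of `∑ a j` is `0`). -/
def chK [Fintype ν] [DecidableEq ν] (C : List (Slot V ν)) (θ : ν → ℝ) (a : ν → ℝ) : ℝ :=
  chE C θ fun ω => (∑ z, a z * chg ω z) ^ 2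

/-- Partition function, spin picture. -/
def spZ (C : List (Slot V ν)) (θ : ν → ℝ) : ℝ :=
  Matrix.trace (wordM (fun x z => 1 + θ z • szM ℝ x) C)

/-- Spin picture with the nodes `u, v` replaced by `σ¹`. -/
def spZxx [DecidableEq ν] (C : List (Slot V ν)) (θ : ν → ℝ) (u v : ν) : ℝ :=
  Matrix.trace (wordM (fun x z => if z = u ∨ z = v then sxM ℝ x else 1 + θ z • szM ℝ x) C)

/-- Spin picture with the node `u` replaced by `σ³`. -/
def spZz [DecidableEq ν] (C : List (Slot V ν)) (θ : ν → ℝ) (u : ν) : ℝ :=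
  Matrix.trace (wordM (fun x z => if z = u then szM ℝ x else 1 + θ z • szM ℝ x) C)

/-- Spin picture with the node `u` removed. -/
def spZr [DecidableEq ν] (C : List (Slot V ν)) (θ : ν → ℝ) (u : ν) : ℝ :=
  Matrix.trace (wordM (fun x z => if z = u then 1 else 1 + θ z • szM ℝ x) C)

/-! ### Interfaces -/

variable [Fintype ν] [DecidableEq ν]

/-- Multilinear expansion in the charge picture. -/
def ExpandStmt (V ν : Type) [Fintype V] [DecidableEq V] [Fintype ν] [DecidableEq ν] : Prop :=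
  ∀ (R : Type) [CommRing R] [Algebra ℝ R] (C : List (Slot V ν)), GoodL C →
    ∀ c : ν → Fin 3 → R,
      Matrix.trace (wordM (fun x z => ∑ n : Fin 3, c z n • compM R n x) C)
        = ∑ ω : ν → Fin 3, (∏ z, c z (ω z)) * algebraMap ℝ R (chW C ω)

/-- Positivity, neutrality and symmetry of the charge law. -/
def LawStmt (V ν : Type) [Fintype V] [DecidableEq V] [Fintype ν] [DecidableEq ν] : Prop :=
  ∀ C : List (Slot V ν), GoodP C → GoodL C →
    (∀ ω, 0 ≤ chW C ω) ∧
    (∀ ω, chW C ω ≠ 0 → ∑ z, ((ω z : ℕ)) = Fintype.card ν) ∧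
    (∀ ω, chW C (fun z => Fin.rev (ω z)) = chW C ω) ∧
    0 < chW C (fun _ => 1)

/-- Equality of the two pictures, conductances as transverse correlations, and one node:
`(∑_{ω, j_u ≠ 0} weight) = θ_u Tr(... σ³_u ...)`, `(∑_{ω, j_u = 0} weight) = Tr(... 1 ...)`. -/
def PictureStmt (V ν : Type) [Fintype V] [DecidableEq V] [Fintype ν] [DecidableEq ν] : Prop :=
  ∀ C : List (Slot V ν), GoodP C → GoodL C → ∀ θ : ν → ℝ,
    chZ C θ = spZ C θ ∧
    (∀ u v, u ≠ v → -(∑ ω, chWt C θ ω * (chg ω u * chg ω v)) = θ u * θ v * spZxx C θ u v) ∧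
    (∀ u, ∑ ω, (if ω u = 1 then 0 else chWt C θ ω) = θ u * spZz C θ u) ∧
    (∀ u, ∑ ω, (if ω u = 1 then chWt C θ ω else 0) = spZr C θ u)

/-- Stability of the generating polynomial (strong Rayleigh property). -/
def StableStmt (V ν : Type) [Fintype V] [DecidableEq V] [Fintype ν] [DecidableEq ν] : Prop :=
  ∀ C : List (Slot V ν), GoodP C → GoodL C → ∀ θ : ν → ℝ, (∀ z, 0 ≤ θ z ∧ θ z ≤ 1) →
    ∀ y : ν → ℂ, (∀ z, 0 < (y z).im) →
      ∑ ω : ν → Fin 3, ((chWt C θ ω : ℝ) : ℂ) * ∏ z, y z ^ ((ω z : ℕ)) ≠ 0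

/-- Same site conductance: if between the node `u` and the node `v` of the word (both at the site
`x`) the slots touching `x` are the swaps of total strength `P` and nodes with total weight `T`. -/
def slotTouch (x y : V) : Slot V ν → Prop
  | Slot.sw a b _ => a = x ∨ b = x ∨ a = y ∨ b = y
  | Slot.nd a _ => a = x ∨ a = y

/-- Loss factor of a slot for an arc staying at the sites `x, y`. -/
def slotLoss (θ : ν → ℝ) (x y : V) : Slot V ν → ℝ
  | Slot.sw a b p => if a = x ∨ b = x ∨ a = y ∨ b = y then (1 - p) / (1 + p) else 1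
  | Slot.nd a z => if a = x ∨ a = y then (1 - θ z) / (1 + θ z) else 1

/-- Strength of a slot as a swap of `x, y`. -/
def slotHop (x y : V) : Slot V ν → ℝ
  | Slot.sw a b p => if (a = x ∧ b = y) ∨ (a = y ∧ b = x) then p else 0
  | Slot.nd _ _ => 0

/-- LOC: lower bounds on single conductances. -/
def LocStmt (V ν : Type) [Fintype V] [DecidableEq V] [Fintype ν] [DecidableEq ν] : Prop :=
  ∀ (C₁ C₂ C₃ : List (Slot V ν)) (x y : V) (u v : ν),
    let C := C₁ ++ Slot.nd x u :: (C₂ ++ Slot.nd y v :: C₃)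
    GoodP C → GoodL C → ∀ θ : ν → ℝ, (∀ z, 0 ≤ θ z ∧ θ z ≤ 1) →
    (∀ a b, 0 ≤ spZxx C θ a b) ∧
    (x = y → θ u * θ v / ((1 + θ u) * (1 + θ v)) * ((C₂.map (slotLoss θ x x)).prod) ≤
        cnd C θ u v) ∧
    (x ≠ y → θ u * θ v / ((1 + θ u) * (1 + θ v)) * (1 / 2) * ((C₂.map (slotLoss θ x y)).prod) *
        ((C₂.map (slotHop x y)).sum) ≤ cnd C θ u v)

end Circuits

end

end Vale.Agent.P361.LRO.CircForm
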